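import Mathlib

/-!
# Cutting a triangle into strips contained in parallelograms

(row 211, package M3 of S0327; helper88.)  For a triangle `conv{p,q,r}` and `n ≥ 1`, the `n`
parallelograms `c j + [0,1] • a j + [0,1] • b` with
`c j = p + (j/n) • (q - p)`, `a j = ((j+1)/n) • (r - q)`, `b = (1/n) • (q - p)` cover the triangle and
their Gram areas sum to `(1 + 1/n)` times the Gram area of the triangle.
-/

set_option autoImplicit false

open scoped RealInnerProductSpace

namespace Crest.Agent.Helper88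

variable {E : Type*} [NormedAddCommGroup E] [InnerProductSpace ℝ E]

/-- Corner of the `j`-th strip parallelogram. -/
noncomputable def stripC (p q : E) (n j : ℕ) : E := p + ((j : ℝ) / n) • (q - p)

/-- First side of the `j`-th strip parallelogram. -/
noncomputable def stripA (q r : E) (n j : ℕ) : E := (((j : ℝ) + 1) / n) • (r - q)

/-- Second side of the strip parallelograms (independent of `j`). -/
noncomputable def stripB (p q : E) (n : ℕ) : E := ((1 : ℝ) / n) • (q - p)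

/-- Points of a triangle: `x = p + s • (q - p) + t • (r - q)` with `0 ≤ t ≤ s ≤ 1`. -/
theorem mem_triangle_param {p q r x : E} (hx : x ∈ convexHull ℝ ({p, q, r} : Set E)) :
    ∃ s t : ℝ, 0 ≤ t ∧ t ≤ s ∧ s ≤ 1 ∧ x = p + s • (q - p) + t • (r - q) := by
  rw [convexHull_insert (Set.insert_nonempty _ _), convexHull_pair] at hx
  obtain ⟨a, ha, y, hy, hxy⟩ := mem_convexJoin.mp hx
  rw [Set.mem_singleton_iff] at ha
  subst ha
  rw [segment_eq_image'] at hy hxy
  obtain ⟨t₁, ht₁, rfl⟩ := hy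
  obtain ⟨s, hs, rfl⟩ := hxy
  refine ⟨s, s * t₁, mul_nonneg hs.1 ht₁.1, ?_, hs.2, ?_⟩
  · exact mul_le_of_le_one_right hs.1 ht₁.2
  · simp only [smul_add, smul_sub, mul_smul]
    abel

/-- **Strips cover** (package M3 of S0327). -/
theorem strips_cover (p q r : E) (n : ℕ) (hn : 0 < n) :
    convexHull ℝ ({p, q, r} : Set E) ⊆ ⋃ j : Fin n,
      {x | ∃ s ∈ Set.Icc (0 : ℝ) 1, ∃ t ∈ Set.Icc (0 : ℝ) 1,
        x = stripC p q n j + s • stripA q r n j + t • stripB p q n} := by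
  intro x hx
  obtain ⟨s, t, ht0, hts, hs1, rfl⟩ := mem_triangle_param hx
  have hs0 : 0 ≤ s := ht0.trans hts
  have hnR : (0 : ℝ) < n := by exact_mod_cast hn
  -- the strip index
  set j : ℕ := min ⌊s * n⌋₊ (n - 1) with hj
  have hjn : j < n := lt_of_le_of_lt (min_le_right _ _) (Nat.sub_lt hn Nat.one_pos)
  have hj_le : (j : ℝ) ≤ s * n := by
    have h1 : (j : ℝ) ≤ (⌊s * n⌋₊ : ℝ) := by exact_mod_cast min_le_left _ _
    exact h1.trans (Nat.floor_le (mul_nonneg hs0 hnR.le))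
  have hj_ge : s * n ≤ (j : ℝ) + 1 := by
    rcases le_total ⌊s * n⌋₊ (n - 1) with h | h
    · have : j = ⌊s * n⌋₊ := min_eq_left h
      rw [this]
      exact (Nat.lt_floor_add_one _).le
    · have : j = n - 1 := min_eq_right h
      rw [this]
      have h2 : ((n - 1 : ℕ) : ℝ) + 1 = n := by
        have : n - 1 + 1 = n := Nat.sub_add_cancel hn
        exact_mod_cast this
      rw [h2]
      nlinarith
  have hj1 : (0 : ℝ) < (j : ℝ) + 1 := by positivity
  refine Set.mem_iUnion.mpr ⟨⟨j, hjn⟩, ?_⟩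
  refine ⟨t * n / ((j : ℝ) + 1), ⟨by positivity, ?_⟩, s * n - j, ⟨by linarith, by linarith⟩, ?_⟩
  · rw [div_le_one hj1]
    nlinarith
  · simp only [stripC, stripA, stripB, smul_smul]
    have e1 : t * n / ((j : ℝ) + 1) * (((j : ℝ) + 1) / n) = t := by
      field_simp
    have e2 : (s * n - j) * (1 / (n : ℝ)) = s - (j : ℝ) / n := by
      field_simp
    rw [e1, e2, sub_smul]
    abel

/-- Cylinder form of `strips_cover`. -/
theorem strips_cover_cyl (u p q r : E) (n : ℕ) (hn : 0 < n) :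
    {x | ∃ b ∈ convexHull ℝ ({p, q, r} : Set E), ∃ τ : ℝ, x = b + τ • u} ⊆ ⋃ j : Fin n,
      {x | ∃ s ∈ Set.Icc (0 : ℝ) 1, ∃ t ∈ Set.Icc (0 : ℝ) 1, ∃ τ : ℝ,
        x = stripC p q n j + s • stripA q r n j + t • stripB p q n + τ • u} := by
  rintro x ⟨b, hb, τ, rfl⟩
  obtain ⟨j, s, hs, t, ht, rfl⟩ := Set.mem_iUnion.mp (strips_cover p q r n hn hb)
  exact Set.mem_iUnion.mpr ⟨j, s, hs, t, ht, τ, rfl⟩

/-- The strip parallelograms lie in `u^⊥` if the triangle does. -/
theorem strips_perp (u p q r : E) (n j : ℕ) (hp : ⟪p, u⟫ = 0) (hq : ⟪q, u⟫ = 0)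
    (hr : ⟪r, u⟫ = 0) :
    ⟪stripC p q n j, u⟫ = 0 ∧ ⟪stripA q r n j, u⟫ = 0 ∧ ⟪stripB p q n, u⟫ = 0 := by
  simp [stripC, stripA, stripB, inner_add_left, inner_sub_left, inner_smul_left, hp, hq, hr]

/-- Gram determinant (squared area of the parallelogram spanned by `a`, `b`). -/
noncomputable def gram (a b : E) : ℝ := ‖a‖ ^ 2 * ‖b‖ ^ 2 - ⟪a, b⟫ ^ 2

theorem gram_nonneg (a b : E) : 0 ≤ gram a b := by
  unfold gram
  have h := abs_real_inner_le_norm a b
  have h2 : ⟪a, b⟫ ^ 2 ≤ (‖a‖ * ‖b‖) ^ 2 := by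
    rw [← sq_abs ⟪a, b⟫]
    exact pow_le_pow_left₀ (abs_nonneg _) h 2
  nlinarith

theorem gram_smul_smul (c d : ℝ) (a b : E) : gram (c • a) (d • b) = c ^ 2 * d ^ 2 * gram a b := by
  unfold gram
  rw [norm_smul, norm_smul, inner_smul_left, inner_smul_right, Real.norm_eq_abs, Real.norm_eq_abs,
    mul_pow, mul_pow, sq_abs, sq_abs]
  simp only [RCLike.conj_to_real]
  ring

theorem gram_sub_left (u v : E) : gram (v - u) u = gram u v := by
  unfold gram
  rw [← real_inner_self_eq_norm_sq (v - u), ← real_inner_self_eq_norm_sq u,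
    ← real_inner_self_eq_norm_sq v, real_inner_sub_sub_self, inner_sub_left,
    real_inner_comm u v]
  ring

theorem sum_fin_succ_cast (n : ℕ) : ∑ j : Fin n, ((j : ℝ) + 1) = (n : ℝ) * (n + 1) / 2 := by
  rw [Fin.sum_univ_eq_sum_range (fun j => ((j : ℝ) + 1)) n]
  induction n with
  | zero => simp
  | succ k ih =>
    rw [Finset.sum_range_succ, ih]
    push_cast
    ring

/-- **Total Gram area of the strips** (package M3 of S0327): it is `(1 + 1/n)` times the Gram area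
`√(gram (q - p) (r - p)) / 2` of the triangle. -/
theorem strips_gram_sum (p q r : E) (n : ℕ) (hn : 0 < n) :
    ∑ j : Fin n, Real.sqrt (‖stripA q r n j‖ ^ 2 * ‖stripB p q n‖ ^ 2 -
        ⟪stripA q r n j, stripB p q n⟫ ^ 2) =
      (1 + 1 / (n : ℝ)) *
        (Real.sqrt (‖q - p‖ ^ 2 * ‖r - p‖ ^ 2 - ⟪q - p, r - p⟫ ^ 2) / 2) := by
  have hnR : (0 : ℝ) < n := by exact_mod_cast hn
  have hrq : r - q = (r - p) - (q - p) := by abel
  have key : ∀ j : Fin n, Real.sqrt (‖stripA q r n j‖ ^ 2 * ‖stripB p q n‖ ^ 2 -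
        ⟪stripA q r n j, stripB p q n⟫ ^ 2) =
      (((j : ℝ) + 1) / n ^ 2) * Real.sqrt (gram (q - p) (r - p)) := by
    intro j
    have h1 : ‖stripA q r n j‖ ^ 2 * ‖stripB p q n‖ ^ 2 - ⟪stripA q r n j, stripB p q n⟫ ^ 2 =
        gram (stripA q r n j) (stripB p q n) := rfl
    rw [h1, stripA, stripB, gram_smul_smul, hrq, gram_sub_left]
    have h2 : (((j : ℝ) + 1) / n) ^ 2 * ((1 : ℝ) / n) ^ 2 = ((((j : ℝ) + 1) / n ^ 2)) ^ 2 := by
      field_simp
    rw [h2, Real.sqrt_mul (sq_nonneg _), Real.sqrt_sq (by positivity)]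
  rw [Finset.sum_congr rfl (fun j _ => key j), ← Finset.sum_mul]
  have h3 : ∑ j : Fin n, (((j : ℝ) + 1) / (n : ℝ) ^ 2) = (1 + 1 / (n : ℝ)) / 2 := by
    rw [← Finset.sum_div, sum_fin_succ_cast]
    field_simp
  rw [h3]
  unfold gram
  ring

end Crest.Agent.Helper88
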